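import Vale.Agent.P209.H113.J5

namespace Vale.Agent.Results.P209.InfinitelyManyBalls

open Vale.Agent.P209

/-- Families of cases of Siegel-Yao Conjecture A, for finitely and for infinitely many balls.
(A) strong packing stability, as an equivalence: all capacities at most `ε R`, with `ε` depending
only on `n`;
(B) all `k ≤ 2 ^ n`;
(C) any `n + 1` balls (and more if the largest ball is close to `R`), medium balls which fill a
small share of the complement of the largest ball, and arbitrarily many balls which are small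
compared with `R - max r`;
(D) all families of total volume less than `2 ^ (1 - n)` of the volume of the ball;
(E), (G) relative packing stability: big balls which satisfy a criterion with room to spare, and
arbitrarily many small balls, without loss of volume;
(F) the chain criterion;
(H) one arbitrary ball, and balls which fill at most `3 ^ (-n)` of its complement;
(I) for fixed `n`, the conjecture holds outside a set of parameters whose proportion decays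
exponentially with the number `k` of balls;
(J) packing stability of arbitrary open sets, for finite and infinite families;
(K) packing stability relative to an arbitrary packing by finitely many balls;
(L) Conjecture A for finitely many balls is equivalent to Conjecture A for sequences of balls;
(M) containers: a finite packing which contains a container for the tail of a sequence gives a
packing of the whole sequence;
(N) (A), (C), (D), (E), (H) for sequences of balls. -/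
theorem result :
    (∀ n : ℕ, 2 ≤ n → ∃ ε : ℝ, 0 < ε ∧ ∀ (k : ℕ) (R : ℝ) (r : Fin k → ℝ), 0 < R →
      (∀ i, 0 < r i ∧ r i ≤ ε * R) → (Packs (openBall n R) r ↔ ∑ i, r i ^ n < R ^ n)) ∧
    (∀ (n k : ℕ), 1 ≤ n → 1 ≤ k → k ≤ 2 ^ n → ∀ (R : ℝ) (r : Fin k → ℝ), 0 < R →
      (∀ i, 0 < r i) → ∑ i, r i ^ n < R ^ n → (∀ i j, i < j → r i + r j < R) →
      Packs (openBall n R) r) ∧
    (∀ n : ℕ, 2 ≤ n → ∃ ε : ℝ, 0 < ε ∧ ∀ (k : ℕ) (R : ℝ) (r : Fin k → ℝ), 0 < R →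
      (∀ i, 0 < r i) → ∑ i, r i ^ n < R ^ n → (∀ i j, i < j → r i + r j < R) →
      ∀ (i0 : Fin k) (B : Finset (Fin k)), (∀ i, r i ≤ r i0) →
      (B.card : ℝ) ≤ n + (ε * R / (R - r i0)) ^ (n - 1) →
      ∑ i with i ≠ i0 ∧ i ∉ B ∧ ε * (R - r i0) < r i, r i ^ n ≤ ε * (R ^ n - r i0 ^ n) →
      Packs (openBall n R) r) ∧
    (∀ (n k : ℕ), 1 ≤ n → ∀ (R : ℝ) (r : Fin k → ℝ), 0 < R → (∀ i, 0 < r i) →
      2 ^ (n - 1) * ∑ i, r i ^ n < R ^ n → Packs (openBall n R) r) ∧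
    (∀ n : ℕ, 2 ≤ n → ∀ γ : ℝ, 0 < γ → ∃ ε : ℝ, 0 < ε ∧ ∀ (k : ℕ) (R : ℝ) (r : Fin k → ℝ),
      0 < R → (∀ i, 0 < r i) → 2 ^ (n - 1) * ∑ i with ε * R < r i, r i ^ n ≤ (1 - γ) * R ^ n →
      ∑ i, r i ^ n < R ^ n → Packs (openBall n R) r) ∧
    (∀ (n k N : ℕ) (R : ℝ) (r : ℕ → ℝ), 1 ≤ n → Antitone r → (∀ i, 0 ≤ r i) →
      (∀ i, i < k → 0 < r i) → r 0 < R → N = 2 ^ n - 1 →
      (∀ q, q * N + 1 < k → ∑ i ∈ Finset.range (q + 1), r (i * N) + r (q * N + 1) < R) →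
      Packs (openBall n R) (fun i : Fin k => r i)) ∧
    (∀ n : ℕ, 2 ≤ n → ∀ γ : ℝ, 0 < γ → ∃ ε : ℝ, 0 < ε ∧
      ∀ (p m j M k K N : ℕ) (R A L : ℝ) (r s : ℕ → ℝ), 0 < R → j ≤ m → Antitone r →
      (∀ i, 0 ≤ r i) → (∀ i, i < k → 0 < r i) → N = 2 ^ n - 1 → K = m ^ n - j ^ n + 1 →
      r 0 ≤ (1 - γ) * R →
      (∀ q, q < p → q * N + 1 < M →
        ∑ i ∈ Finset.range (q + 1), r (i * N) + r (q * N + 1) ≤ (1 - γ) * R) →
      (∀ i, s i = r (p * N + i)) → A = (1 - γ) * R - ∑ i ∈ Finset.range p, r (i * N) →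
      L = max (s 0) (j * s 1) + ∑ q ∈ Finset.Ico j m, s (q ^ n - j ^ n + 1) →
      (p * N < M → L ≤ A ∧ (K < M - p * N →
        L ^ n + ∑ i ∈ Finset.Ico (K + 1) (M - p * N), s i ^ n ≤ (A - s K) ^ n)) →
      r M ≤ ε * R → ∑ i ∈ Finset.range k, r i ^ n < R ^ n →
      Packs (openBall n R) (fun i : Fin k => r i)) ∧
    (∀ (n k : ℕ), 3 ≤ n → ∀ (R : ℝ) (r : Fin k → ℝ), 0 < R → (∀ i, 0 < r i) →
      ∑ i, r i ^ n < R ^ n → (∀ i j, i < j → r i + r j < R) → ∀ i0 : Fin k, (∀ i, r i ≤ r i0) →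
      3 ^ n * ∑ i with i ≠ i0, r i ^ n ≤ R ^ n - r i0 ^ n → Packs (openBall n R) r) ∧
    (∀ n : ℕ, 2 ≤ n → ∃ C q : ℝ, 0 < C ∧ 0 < q ∧ q < 1 ∧ ∀ k : ℕ,
      MeasureTheory.volume {r : Fin k → ℝ | ((∀ i, 0 < r i) ∧ ∑ i, r i ^ n < 1 ∧
        ∀ i j, i < j → r i + r j < 1) ∧ ¬ Packs (openBall n 1) r} ≤
      ENNReal.ofReal (C * q ^ k) * MeasureTheory.volume {r : Fin k → ℝ | (∀ i, 0 < r i) ∧
        ∑ i, r i ^ n < 1 ∧ ∀ i j, i < j → r i + r j < 1}) ∧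
    (∀ n : ℕ, 2 ≤ n → ∀ (U : Set (Fin n → ℂ)) (V : ENNReal), IsOpen U →
      V < MeasureTheory.volume U → ∃ ε : ℝ, 0 < ε ∧ ∀ (ι : Type) (r : ι → ℝ),
        (∀ i, 0 < r i ∧ r i ≤ ε) → ∑' i, MeasureTheory.volume (closedBall n (r i)) ≤ V →
        Packs U r) ∧
    (∀ n l : ℕ, 2 ≤ n → ∀ (R V : ℝ) (r : Fin l → ℝ), 0 < R → (∀ i, 0 < r i) →
      Packs (openBall n R) r → ∑ i, r i ^ n + V < R ^ n →
      ∃ ε : ℝ, 0 < ε ∧ ∀ (ι : Type) (s : ι → ℝ), (∀ i, 0 < s i ∧ s i ≤ ε) →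
        Summable (fun i => s i ^ n) → ∑' i, s i ^ n ≤ V →
        Packs (openBall n R) (Sum.elim r s)) ∧
    (∀ n : ℕ, 1 ≤ n → (ConjA n ↔ ConjASeq n)) ∧
    (∀ (n K : ℕ) (R ρ : ℝ) (r : ℕ → ℝ), 1 ≤ n → 0 < ρ → (∀ i, 0 < r i) →
      Summable (fun i => r i ^ n) → 2 ^ (n - 1) * ∑' i, r (K + i) ^ n < ρ ^ n →
      Packs (openBall n R) (fun i : Fin (K + 1) => if (i : ℕ) < K then r i else ρ) →
      Packs (openBall n R) r) ∧
    (∀ n : ℕ, 2 ≤ n → ∃ ε : ℝ, 0 < ε ∧ ∀ (R : ℝ) (r : ℕ → ℝ), 0 < R →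
      (∀ i, 0 < r i ∧ r i ≤ ε * R) →
      (Summable (fun i => r i ^ n) → ∑' i, r i ^ n < R ^ n → Packs (openBall n R) r) ∧
      (Packs (openBall n R) r → Summable (fun i => r i ^ n) ∧ ∑' i, r i ^ n ≤ R ^ n)) ∧
    (∀ n : ℕ, 2 ≤ n → ∃ ε : ℝ, 0 < ε ∧ ∀ (R : ℝ) (r : ℕ → ℝ), 0 < R → (∀ i, 0 < r i) →
      Summable (fun i => r i ^ n) → ∑' i, r i ^ n < R ^ n → (∀ i j, i < j → r i + r j < R) →
      ∀ (i0 : ℕ) (B : Finset ℕ), (∀ i, r i ≤ r i0) →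
      (B.card : ℝ) ≤ n + (ε * R / (R - r i0)) ^ (n - 1) →
      ∑' i, (if i ≠ i0 ∧ i ∉ B ∧ ε * (R - r i0) < r i then r i ^ n else 0) ≤
        ε * (R ^ n - r i0 ^ n) → Packs (openBall n R) r) ∧
    (∀ n : ℕ, 1 ≤ n → ∀ (R : ℝ) (r : ℕ → ℝ), 0 < R → (∀ i, 0 < r i) →
      Summable (fun i => r i ^ n) → 2 ^ (n - 1) * ∑' i, r i ^ n < R ^ n →
      Packs (openBall n R) r) ∧
    (∀ n : ℕ, 2 ≤ n → ∀ γ : ℝ, 0 < γ → ∃ ε : ℝ, 0 < ε ∧ ∀ (R : ℝ) (r : ℕ → ℝ), 0 < R →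
      (∀ i, 0 < r i) → Summable (fun i => r i ^ n) →
      2 ^ (n - 1) * ∑' i, (if ε * R < r i then r i ^ n else 0) ≤ (1 - γ) * R ^ n →
      ∑' i, r i ^ n < R ^ n → Packs (openBall n R) r) ∧
    (∀ n : ℕ, 3 ≤ n → ∀ (R : ℝ) (r : ℕ → ℝ), 0 < R → (∀ i, 0 < r i) →
      Summable (fun i => r i ^ n) → (∀ i j, i < j → r i + r j < R) → ∀ i0 : ℕ,
      (∀ i, r i ≤ r i0) → 3 ^ n * ∑' i, (if i ≠ i0 then r i ^ n else 0) < R ^ n - r i0 ^ n →
      Packs (openBall n R) r) := by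
  obtain ⟨hA, hB, hC, hD, hE, hF, hG, hH, hI⟩ := V.main2
  obtain ⟨h1, h2, h3, h4, h5, h6⟩ := Inf.main_seq
  exact ⟨hA, hB, hC, hD, hE, hF, hG, hH, hI, J.open_stability,
    J.around_any, fun n hn => Inf.main_iff hn, h1, h2, h3, h4, h5, h6⟩

end Vale.Agent.Results.P209.InfinitelyManyBalls
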